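import Vale.Agent.P198.GL.Glue3
import Vale.Agent.P198.GC.Main

/-!
# P198, Stage 2 glue (4): the final theorem from the chart block alone
-/

namespace P198GL

theorem stage2_of_chart (hCH : P198S2.CH_Statement) : Vale.Agent.P198.H.Stage2 :=
  stage2_final hCH P198G.gcStatement

end P198GL
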