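import Vale.Agent.P198.S2.Interface
import Vale.Agent.P198.C5.HoloAnti
import Vale.Agent.P198.H3.Geo3

/-!
# P198, Stage 2 glue (1): from a conformal chart to a geometric action on hyperbolic space
-/

open Metric Set TopologicalSpace MeasureTheory Filter Topology
open scoped ContDiff ComplexConjugate

namespace P198GL

open P198S2 P198C5

/-- The statement E0: a homeomorphism of the Riemann sphere whose finite part is holomorphic or
antiholomorphic is a Moebius or anti-Moebius map. -/
def E0 : Prop :=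
  ∀ Φ : OnePoint ℂ ≃ₜ OnePoint ℂ,
    (DifferentiableOn ℂ (finPart Φ) (finPart Φ).source ∨
      DifferentiableOn ℂ (fun z => conj (finPart Φ z)) (finPart Φ).source) → P198H.IsMoeb Φ

theorem finPart_symm (Φ : OnePoint ℂ ≃ₜ OnePoint ℂ) : (finPart Φ).symm = finPart Φ.symm := by
  simp only [finPart, OpenPartialHomeomorph.trans_symm_eq_symm_trans_symm,
    OpenPartialHomeomorph.symm_symm, OpenPartialHomeomorph.trans_assoc]
  rfl

theorem mem_finPart_source {Φ : OnePoint ℂ ≃ₜ OnePoint ℂ} {z : ℂ} :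
    z ∈ (finPart Φ).source ↔ Φ z ≠ OnePoint.infty := by
  rw [OnePoint.ne_infty_iff_exists]
  simp [finPart, coeP]

theorem finPart_coe {Φ : OnePoint ℂ ≃ₜ OnePoint ℂ} {z : ℂ} (hz : z ∈ (finPart Φ).source) :
    ((finPart Φ z : ℂ) : OnePoint ℂ) = Φ z := by
  have h : Φ z ∈ (coeP : OpenPartialHomeomorph ℂ (OnePoint ℂ)).target := by
    have := mem_finPart_source.1 hz
    rw [OnePoint.ne_infty_iff_exists] at this
    obtain ⟨w, hw⟩ := this
    exact ⟨w, mem_univ _, hw⟩
  exact (coeP : OpenPartialHomeomorph ℂ (OnePoint ℂ)).right_inv h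

theorem isPreconnected_source (Φ : OnePoint ℂ ≃ₜ OnePoint ℂ) : IsPreconnected (finPart Φ).source := by
  have h : (finPart Φ).source = {z : ℂ | (z : OnePoint ℂ) ≠ Φ.symm OnePoint.infty} := by
    ext z
    rw [mem_finPart_source, mem_ofPred_eq, not_iff_not]
    constructor
    · intro h
      rw [← h, Φ.symm_apply_apply]
    · intro h
      rw [h, Φ.apply_symm_apply]
  rw [h]
  rcases OnePoint.exists.1 ⟨Φ.symm OnePoint.infty, rfl⟩ with hinf | ⟨w, hw⟩
  · have : {z : ℂ | (z : OnePoint ℂ) ≠ Φ.symm OnePoint.infty} = univ := by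
      ext z
      rw [hinf]
      simp
    rw [this]
    exact isPreconnected_univ
  · have : {z : ℂ | (z : OnePoint ℂ) ≠ Φ.symm OnePoint.infty} = {w}ᶜ := by
      ext z
      rw [hw]
      simp
    rw [this]
    exact (isConnected_compl_singleton_of_one_lt_rank (by simp) w).isPreconnected

theorem grad_eq (φ : ℂ → ℝ) (hφ : Differentiable ℝ φ) (x : ℂ) : ‖P198S2.grad φ x‖ = ‖fderiv ℝ φ x‖ := by
  rw [← norm_gradient, gradient_eq hφ]
  congr 1
  apply Complex.ext <;> simp [P198S2.grad]

variable {G Z : Type*} [Group G] [MetricSpace Z] [MulAction G Z]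

/-- conjugates of group elements in the chart `F`. -/
noncomputable def conjMap (hc : ∀ g : G, Continuous (fun x : Z => g • x)) (F : Z ≃ₜ OnePoint ℂ) (g : G) :
    OnePoint ℂ ≃ₜ OnePoint ℂ := F.symm.trans ((homeoOf hc g).trans F)

theorem conjMap_apply (hc : ∀ g : G, Continuous (fun x : Z => g • x)) (F : Z ≃ₜ OnePoint ℂ) (g : G)
    (x : OnePoint ℂ) : conjMap hc F g x = F (g • F.symm x) := rfl

theorem conjMap_symm (hc : ∀ g : G, Continuous (fun x : Z => g • x)) (F : Z ≃ₜ OnePoint ℂ) (g : G) :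
    (conjMap hc F g).symm = conjMap hc F g⁻¹ := by
  ext x
  rfl

theorem contr_of_confChart {hc : ∀ g : G, Continuous (fun x : Z => g • x)} {F : Z ≃ₜ OnePoint ℂ}
    (h : IsConfChart hc F) (g : G) : Contr (finPart (conjMap hc F g)) := by
  intro φ hφ hcs hs
  obtain ⟨w, hw, hle⟩ := h g φ hφ hcs hs
  refine ⟨w, hw, hle.trans (le_of_eq ?_)⟩
  refine integral_congr_ae (Eventually.of_forall fun x => ?_)
  simp only
  rw [grad_eq φ (hφ.differentiable (by simp)) x]

theorem isMoeb_of_confChart (hE : E0) {hc : ∀ g : G, Continuous (fun x : Z => g • x)}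
    {F : Z ≃ₜ OnePoint ℂ} (h : IsConfChart hc F) (g : G) :
    P198H.IsMoeb (fun x => F (g • F.symm x)) := by
  have h1 := contr_of_confChart h g
  have h2 : Contr (finPart (conjMap hc F g)).symm := by
    rw [finPart_symm, conjMap_symm]
    exact contr_of_confChart h g⁻¹
  exact hE (conjMap hc F g) (holo_or_anti _ (isPreconnected_source _) h1 h2)

/-- a conformal chart gives a geometric action on hyperbolic 3-space. -/
theorem geometric_of_confChart [CompactSpace Z] (hE : E0) (q : P198Q.QM G Z)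
    {hc : ∀ g : G, Continuous (fun x : Z => g • x)} {F : Z ≃ₜ OnePoint ℂ} (h : IsConfChart hc F) :
    ∃ ρ : G →* (P198H.H3 ≃ᵢ P198H.H3),
      (∀ K : Set P198H.H3, IsCompact K → {g : G | ((ρ g) '' K ∩ K).Nonempty}.Finite) ∧
      ∃ K : Set P198H.H3, IsCompact K ∧ ⋃ g : G, (ρ g) '' K = Set.univ :=
  P198H.geometric_of_moebius q F (isMoeb_of_confChart hE h)

end P198GL
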