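import Vale.Agent.P198.GL.Glue1
import Vale.Agent.P198.H.Final1
import Vale.Agent.P198.H.Stage2

/-!
# P198, Stage 2 glue (2): the final theorem from the block outputs
-/

open Metric Set TopologicalSpace MeasureTheory Filter Topology
open scoped ContDiff ComplexConjugate

namespace P198GL

open P198S2 Vale.Agent.P198.H P198H

theorem countable_of_hypLen {G : Type} [Group G] (H : HypLen G) : Countable G := by
  have h : (univ : Set G) = ⋃ n : ℕ, {g | H.len g ≤ n} := by
    ext g
    simp only [mem_univ, mem_iUnion, mem_ofPred_eq, true_iff]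
    exact ⟨H.len g, le_rfl⟩
  rw [← countable_univ_iff, h]
  exact countable_iUnion fun n => (H.fin_ball n).countable

theorem connectedSpace_sphere2 : ConnectedSpace (sphere (0 : EuclideanSpace ℝ (Fin 3)) 1) := by
  rw [← isConnected_iff_connectedSpace]
  refine isConnected_sphere ?_ 0 zero_le_one
  rw [← Module.finrank_eq_rank, finrank_euclideanSpace_fin]
  norm_num

/-- the final theorem, from the statements of the blocks. -/
theorem stage2_of (hCH : CH_Statement) (hEN : EN_Statement) (hGC : GC_Statement) (hE : E0) :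
    Stage2 := by
  intro G _ S hS δ h ⟨f⟩
  set H := hypLen hS h with hH
  let e : Bdry S ≃ₜ H.Bd := bdryHomeo hS H rfl
  let f' : H.Bd ≃ₜ sphere (0 : EuclideanSpace ℝ (Fin 3)) 1 := e.symm.trans f
  obtain ⟨y₁, y₂, hy⟩ := exists_ne_of_homeo f'
  let q : P198Q.QM G H.Bd := H.qm y₁ y₂ hy
  have hP : P198Q.Planar H.Bd := P198Q.planar_of_homeomorph f'
  have : Countable G := countable_of_hypLen H
  have : ConnectedSpace (sphere (0 : EuclideanSpace ℝ (Fin 3)) 1) := connectedSpace_sphere2
  have : ConnectedSpace H.Bd := f'.symm.surjective.connectedSpace f'.symm.continuous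
  obtain ⟨N, hN⟩ := P198Q.exists_net H.Bd
  obtain ⟨c, hc⟩ := hCH G H.Bd q hP ⟨f'⟩ N hN (fun t ht => P198Q.theoremA q hP N hN t ht)
  have hcont : ∀ g : G, Continuous (fun x : H.Bd => g • x) := P198Q.smul_continuous q
  obtain ⟨a, b, c', lam, hI⟩ := hEN G H.Bd q hcont c hc
  obtain ⟨F, hF⟩ := hGC G H.Bd q hP hcont c hc a b c' lam hI
  obtain ⟨ρ, hρ, hco⟩ := geometric_of_confChart hE q hF
  refine ⟨ρ, ?_, hρ, hco⟩
  let p : H3 := ⟨0, 1, one_pos⟩
  have hfin := hρ {p} isCompact_singleton
  refine (hfin.subset ?_).to_subtype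
  intro g hg
  refine ⟨p, ⟨p, rfl, ?_⟩, rfl⟩
  rw [show ρ g = 1 from hg]
  rfl

end P198GL
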