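import Vale.Agent.P198.GL.Glue2
import Vale.Agent.P198.ST.Exists
import Vale.Agent.P198.ST.QuotFub
import Vale.Agent.P198.RD.PGof
import Vale.Agent.P198.RD.Main
import Vale.Agent.P198.C4.Limit
import Vale.Agent.P198.C4.Conv
import Vale.Agent.P198.C5.Lin
import Vale.Agent.P198.H3.End
import Vale.Agent.P198.H.StageTwo

/-!
# P198, Stage 2 glue (3): from a quasisymmetric local chart and the zoom to the geometric action
-/

open Metric Set TopologicalSpace MeasureTheory Filter Topology
open scoped ContDiff ComplexConjugate Gradient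

namespace P198GL

open P198S2 P198C5 P198C4 P198ST P198Q Vale.Agent.P363.R.Sob

/-- the gradient of `φ ∘ γ`, extended by zero, is the gradient of the extension by zero. -/
theorem gradient_tr {γ : OpenPartialHomeomorph ℂ ℂ} {φ : ℂ → ℝ} (hφ : Test φ)
    (hs : tsupport φ ⊆ γ.target) :
    γ.source.indicator (fun x => gradient (φ ∘ γ) x) = gradient (tr γ φ) := by
  have hcc : CC γ.target φ := cc_of_test hφ hs
  funext x
  by_cases hx : x ∈ γ.source
  · rw [indicator_of_mem hx]
    have h : tr γ φ =ᶠ[𝓝 x] φ ∘ γ := by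
      filter_upwards [γ.open_source.mem_nhds hx] with y hy
      exact tr_mem hy
    rw [gradient, gradient, h.fderiv_eq]
  · rw [indicator_of_notMem hx]
    have h : tr γ φ =ᶠ[𝓝 x] fun _ => (0 : ℝ) := by
      refine notMem_tsupport_iff_eventuallyEq.1 fun hx' => hx ?_
      exact hcc.tr.sub hx'
    rw [gradient, h.fderiv_eq]
    simp

variable {G Z : Type} [Group G] [MetricSpace Z] [MulAction G Z]

/-- the invariant field in the local chart. -/
theorem exists_contrB [Countable G] (q : QM G Z) (hc : ∀ g : G, Continuous (fun x : Z => g • x))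
    (e : OpenPartialHomeomorph Z ℂ) (he : P198S2.LChart e) :
    ∃ (lam Lam : ℝ) (B : ℂ → ℂ →L[ℝ] ℂ), 0 < lam ∧ Fld lam Lam B ∧
      ∀ g, ContrB B (P198S2.trans hc e g) := by
  obtain ⟨H, hH, hloc⟩ := P198R.locH_trans q hc e he
  obtain ⟨c, C, B, hc0, hm, hsym, hlow, hup, hen⟩ := (P198R.pg hc e).exists_field_of_round hH.le
    (fun g x hx => by
      obtain ⟨r₀, hr₀, h⟩ := hloc g x hx
      filter_upwards [Ioc_mem_nhdsGT hr₀] with r hr
      exact h x (mem_ball_self hr₀) r hr.1 hr.2)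
    WG (fun g hd φ h1 h2 h3 => by
      have hT : Test φ := ⟨h1, h2⟩
      rw [gradient_tr hT h3]
      exact wg_tr (hloc g) hd hT h3)
  refine ⟨c, C, B, hc0, ⟨hm.aestronglyMeasurable, hsym, hlow, hup⟩, fun g φ hφ hs => ?_⟩
  obtain ⟨w, hw, hle⟩ := hen g φ hφ.1 hφ.2 hs
  exact ⟨w, hw, hle⟩

/-- a local chart in the sense of S2 is a local chart in the sense of GC near every point. -/
theorem LChart.toG {e : OpenPartialHomeomorph Z ℂ} (he : P198S2.LChart e) {z₀ : Z}
    (hz : z₀ ∈ e.source) :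
    ∃ ρ H : ℝ, closedBall z₀ ρ ⊆ e.source ∧ P198G.LChart e z₀ ρ 1 H := by
  obtain ⟨H, hH⟩ := he.qs 1
  obtain ⟨r, hr, hsub, h⟩ := hH z₀ hz
  have hb : closedBall z₀ (r / 2) ⊆ ball z₀ r := closedBall_subset_ball (by linarith)
  refine ⟨r / 2, H, hb.trans hsub, ⟨by positivity, e.continuousOn.mono (hb.trans hsub),
    e.injOn.mono (hb.trans hsub), ?_, ?_⟩⟩
  · intro x hx y hy z hz' hd
    have := h x (hb hx) y (hb hy) z (hb hz') (by linarith)
    rwa [norm_sub_rev, norm_sub_rev (e z)]
  · have h1 : e '' closedBall z₀ (r / 2) ∈ map e (𝓝 z₀) :=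
      image_mem_map (closedBall_mem_nhds z₀ (by positivity))
    rwa [e.map_nhds_eq hz] at h1

/-- from a quasisymmetric local chart and the zoom theorem to the geometric action. -/
theorem geometric_of_chart [CompactSpace Z] [ConnectedSpace Z] [Countable G] (q : QM G Z)
    (hP : Planar Z) (hGC : P198G.GCStatement) (e : OpenPartialHomeomorph Z ℂ)
    (he : P198S2.LChart e) :
    ∃ ρ : G →* (P198H.H3 ≃ᵢ P198H.H3), Finite ρ.ker ∧
      (∀ K : Set P198H.H3, IsCompact K → {g : G | ((ρ g) '' K ∩ K).Nonempty}.Finite) ∧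
      ∃ K : Set P198H.H3, IsCompact K ∧ ⋃ g : G, (ρ g) '' K = Set.univ := by
  have hc : ∀ g : G, Continuous (fun x : Z => g • x) := smul_continuous q
  obtain ⟨lam, Lam, B, hlam, hB, hcontr⟩ := exists_contrB q hc e he
  -- a Lebesgue point in the image of the chart
  obtain ⟨x₀, hx₀t, hx₀⟩ : ∃ x₀ ∈ e.target, LebPt B x₀ := by
    have hne : e.target.Nonempty := by
      obtain ⟨z, hz⟩ := he.nonempty
      exact ⟨e z, e.map_source hz⟩
    have h1 := e.open_target.measure_pos volume hne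
    have h2 : volume {x : ℂ | ¬ LebPt B x} = 0 := ae_lebPt hB
    by_contra hcon
    push Not at hcon
    have h3 : e.target ⊆ {x : ℂ | ¬ LebPt B x} := fun x hx => hcon x hx
    exact absurd (measure_mono_null h3 h2) h1.ne'
  set z₀ : Z := e.symm x₀ with hz₀
  have hz₀s : z₀ ∈ e.source := e.map_target hx₀t
  have hez : e z₀ = x₀ := e.right_inv hx₀t
  obtain ⟨ρ, H, hsub, hch⟩ := LChart.toG he hz₀s
  obtain ⟨h, r, b, F, hZ⟩ := hGC G Z q hP e z₀ ρ 1 H hch
  -- the transition maps in the limit chart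
  set γ : G → OpenPartialHomeomorph ℂ ℂ := fun g => finPart (conjMap hc F g) with hγ
  have hγs : ∀ g, (γ g).symm = γ g⁻¹ := fun g => by
    rw [hγ]
    simp only
    rw [finPart_symm, conjMap_symm]
  have hcB : ∀ g, ContrB (fun _ => B x₀) (γ g) := by
    intro g
    refine contrB_of_zoom hlam hB hx₀ (l := atTop) (r := r) hZ.r_pos hZ.r_lim
      (γ' := fun n => P198S2.trans hc e ((h n)⁻¹ * g * h n)) (fun n => hcontr _) ?_
    intro φ hφ hs
    obtain ⟨h1, -, h2⟩ := hconv hc e hZ hsub g hφ.continuous hφ.2 hs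
    rw [hez] at h1 h2
    exact ⟨h1, h2⟩
  -- the linear change
  obtain ⟨S, hS⟩ := exists_sqrt hlam (B x₀) (hB.symm x₀) (hB.lower x₀)
  obtain ⟨S', hS'⟩ := exists_adj S
  set T : ℂ ≃L[ℝ] ℂ := S'.symm with hT
  have hC : ∀ g, Contr (cj T (γ g)) := fun g =>
    contr_cj hS hS' (fun φ h1 h2 h3 => hcB g φ ⟨h1, h2⟩ h3)
  have hC' : ∀ g, Contr (cj T (γ g)).symm := fun g => by
    rw [cj_symm, hγs]
    exact hC g⁻¹
  have hpre : ∀ g, IsPreconnected (cj T (γ g)).source := by
    intro g
    rw [cj_source]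
    have h1 : T.symm ⁻¹' (γ g).source = T '' (γ g).source := by
      ext x
      constructor
      · intro hx
        exact ⟨T.symm x, hx, by simp⟩
      · rintro ⟨y, hy, rfl⟩
        simpa using hy
    rw [h1]
    exact (isPreconnected_source _).image _ T.continuous.continuousOn
  have key : ∀ (g : G) (z : ℂ), (F.trans T.toHomeomorph.onePointCongr)
      (g • (F.trans T.toHomeomorph.onePointCongr).symm (z : OnePoint ℂ)) ≠ OnePoint.infty →
      z ∈ (cj T (γ g)).source ∧ ((cj T (γ g) z : ℂ) : OnePoint ℂ) =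
        (F.trans T.toHomeomorph.onePointCongr)
          (g • (F.trans T.toHomeomorph.onePointCongr).symm (z : OnePoint ℂ)) := by
    intro g z hz
    have hsymm : (F.trans T.toHomeomorph.onePointCongr).symm (z : OnePoint ℂ) =
      F.symm ((T.symm z : ℂ) : OnePoint ℂ) := rfl
    rw [hsymm] at hz ⊢
    have hmap : ∀ w : OnePoint ℂ, T.toHomeomorph.onePointCongr w ≠ OnePoint.infty →
        w ≠ OnePoint.infty := by
      rintro w hw rfl
      exact hw rfl
    have hne : conjMap hc F g ((T.symm z : ℂ) : OnePoint ℂ) ≠ OnePoint.infty := hmap _ hz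
    have hmem : T.symm z ∈ (γ g).source := mem_finPart_source.2 hne
    refine ⟨hmem, ?_⟩
    have h1 := finPart_coe hmem
    change ((T (γ g (T.symm z)) : ℂ) : OnePoint ℂ) =
      T.toHomeomorph.onePointCongr (conjMap hc F g ((T.symm z : ℂ) : OnePoint ℂ))
    rw [← h1]
    rfl
  refine P198H.geometric_of_conformal' q (F.trans T.toHomeomorph.onePointCongr)
    (fun g => cj T (γ g)) ?_ ?_ (fun g => holo_or_anti _ (hpre g) (hC g) (hC' g))
  · intro g z hz
    exact (key g z hz).1
  · intro g z hz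
    exact (key g z hz).2

/-- the final theorem, from the chart block and the zoom block. -/
theorem stage2_final (hCH : CH_Statement) (hGC : P198G.GCStatement) :
    Vale.Agent.P198.H.Stage2 := by
  intro G _ S hS δ h ⟨f⟩
  set H := Vale.Agent.P198.H.hypLen hS h with hH
  let e : Vale.Agent.P198.H.Bdry S ≃ₜ H.Bd := Vale.Agent.P198.H.bdryHomeo hS H rfl
  let f' : H.Bd ≃ₜ sphere (0 : EuclideanSpace ℝ (Fin 3)) 1 := e.symm.trans f
  obtain ⟨y₁, y₂, hy⟩ := Vale.Agent.P198.H.exists_ne_of_homeo f'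
  let q : P198Q.QM G H.Bd := H.qm y₁ y₂ hy
  have hP : P198Q.Planar H.Bd := P198Q.planar_of_homeomorph f'
  have : Countable G := countable_of_hypLen H
  have : ConnectedSpace (sphere (0 : EuclideanSpace ℝ (Fin 3)) 1) := connectedSpace_sphere2
  have : ConnectedSpace H.Bd := f'.symm.surjective.connectedSpace f'.symm.continuous
  obtain ⟨N, hN⟩ := P198Q.exists_net H.Bd
  obtain ⟨c, hc⟩ := hCH G H.Bd q hP ⟨f'⟩ N hN (fun t ht => P198Q.theoremA q hP N hN t ht)
  exact geometric_of_chart q hP hGC c hc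

end P198GL
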